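import Vale.Agent.Lib.P230.Defs
import Vale.Agent.Lib.P230.Energy

/-! Statements of modules, used for the top-level composition. Each will move to its own file. -/

set_option autoImplicit false

open MeasureTheory Finset
open scoped ENNReal

namespace Vale.Agent.Lib.P230

/-- MODULE window: a log-concave function on `ℝ^t` has a large cube window. -/
theorem log_window {t : ℕ} (ht : 1 ≤ t) (A : (Fin t → ℝ) → ℝ) (h0 : ∀ z, 0 ≤ A z)
    (hm : Measurable A) (hb : ∃ c, ∀ z, A z ≤ c) (hs : Bornology.IsBounded {z | A z ≠ 0})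
    (hl : LogConc A) (hpos : 0 < ∫⁻ z, ENNReal.ofReal (A z)) :
    ∃ (S : Matrix (Fin t) (Fin t) ℝ) (z₀ : Fin t → ℝ) (V₀ : ℝ), S.det ≠ 0 ∧ 0 < V₀ ∧
      (∀ x : Fin t → ℝ, (∀ i, |x i| ≤ 2) → V₀ ≤ A (z₀ + S.mulVec x)) ∧
      ∫⁻ z, ENNReal.ofReal (A z) ≤
        ENNReal.ofReal ((2 ^ 16 * (t : ℝ) ^ 2) ^ t * V₀ * |S.det|) := by
  sorry

/-- MODULE sections: section volumes of a convex compact set. -/
theorem section_props {d t : ℕ} (K : Set ((Fin d → ℝ) × (Fin t → ℝ))) (hc : Convex ℝ K)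
    (hK : IsCompact K) :
    (∀ z, 0 ≤ secVol K z) ∧ Measurable (secVol K) ∧ (∃ c, ∀ z, secVol K z ≤ c) ∧
      Bornology.IsBounded {z | secVol K z ≠ 0} ∧ LogConc (secVol K) ∧
      volume K = ∫⁻ z, ENNReal.ofReal (secVol K z) := by
  sorry

/-- MODULE convex: lattice points of dilates of finitely many convex bodies are `Good`. -/
theorem convex_good {d : ℕ} (hd : 0 < d) {U : Type} [Finite U] (B : U → Set (Fin d → ℝ)) (V : ℝ)
    (hV : 0 < V) (hc : ∀ u, Convex ℝ (B u)) (hK : ∀ u, IsCompact (B u))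
    (hv : ∀ u, (volume (B u)).toReal = V) :
    ∃ (θ : ℝ) (W Q : ℕ → ℕ), 0 < θ ∧ Filter.Tendsto W Filter.atTop Filter.atTop ∧
      (∀ R, Q R ≤ W R ∧ W R ≤ Q R ^ 4) ∧
      ∀ᶠ R : ℕ in Filter.atTop, ∀ u,
        Good (lat (B u) R) ((R : ℝ) ^ d * V) (W R) (Q R) (99 / 100) θ := by
  sorry

/-- MODULE count: asymptotic count of lattice points of a convex compact set. -/
theorem lat_card_tendsto {d : ℕ} (B : Set (Fin d → ℝ)) (hc : Convex ℝ B) (hK : IsCompact B) :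
    Filter.Tendsto (fun R : ℕ => ((lat B R).card : ℝ) / (R : ℝ) ^ d) Filter.atTop
      (nhds (volume B).toReal) := by
  sorry

/-- MODULE base: the hash with small void for a whole family. -/
theorem base_hash : ∃ d₀ : ℕ, ∀ d ≥ d₀, ∀ θ : ℝ, 0 < θ → ∃ W₀ : ℕ,
    ∀ (U : Type) [Fintype U] (Afam : U → Finset (Fin d → ℤ)) (M : ℝ) (W Q P : ℕ) [Fact P.Prime]
      (Y0 : Finset (Fin d → ℤ)),
      (Fintype.card U : ℝ) ≤ 2 ^ (mstar d / 16) → W₀ ≤ W → Q ≤ W → W ≤ Q ^ 4 →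
      (∀ u, Good (Afam u) M W Q (99 / 100) θ) →
      2 ^ (e0 d + 1) * (P : ℝ) ≤ M → M ≤ 2 ^ (e0 d + 2) * (P : ℝ) →
      (∀ y ∈ Y0, ∃ i, ¬ (P : ℤ) ∣ y i) → 8 * Y0.card ≤ P →
      ∃ (r : Fin d → ZMod P) (ρ : Fin (mstar d) → Fin d → ZMod 2),
        (∀ y ∈ Y0, hash r ρ y ≠ 0) ∧
        ∀ u, (((univ.filter fun c : ZMod P × (Fin (mstar d) → ZMod 2) =>
            ∀ y ∈ Afam u, hash r ρ y ≠ c).card : ℝ) ≤
          (1 / 2 : ℝ) ^ (mstar d / 4) * ((P : ℝ) * 2 ^ mstar d)) := by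
  sorry

end Vale.Agent.Lib.P230
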