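import Vale.Agent.Lib.P230.HashDefs

/-! Statements of the hash-chain modules. -/

set_option autoImplicit false

open MeasureTheory Finset
open scoped ENNReal Matrix Classical

namespace Vale.Agent.Lib.P230

/-- MODULE moment: k-wise independence tail bound for `F_2` hashes. -/
theorem moment_tail {X : Type*} [DecidableEq X] {D : ℕ} (w : X → Fin D → ZMod 2) (A : Finset X)
    (m : ℕ) (hm : 1 ≤ m) (h : NoShort w A (2 * m)) (δ : ℝ) (hδ : 0 < δ) (hA : A.Nonempty) :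
    ((univ.filter fun x : Fin D → ZMod 2 =>
        (((Hx w x A).card : ℝ) < (1 / 2 - δ) * A.card)).card : ℝ) ≤
      2 ^ D * ((m : ℝ) / (2 * δ ^ 2 * A.card)) ^ m := by
  sorry

/-- MODULE kernel: number of annihilators of independent vectors. -/
theorem card_annihilator {p : ℕ} [Fact p.Prime] {D l : ℕ} (u : Fin l → Fin D → ZMod p)
    (hu : LinearIndependent (ZMod p) u) :
    (univ.filter fun x : Fin D → ZMod p => ∀ i, x ⬝ᵥ u i = 0).card = p ^ (D - l) := by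
  sorry

/-- MODULE gcd chain (generic form). -/
theorem gcd_chain {E : Type*} [AddCommGroup E] [DecidableEq E] [IsAddTorsionFree E] (Y : Finset E)
    (c : ℕ → ℝ) (Ξ : ℕ → ℕ → ℝ) (Qm : ℕ)
    (hc0 : ∀ q, 0 ≤ c q) (hΞ0 : ∀ l g, 0 ≤ Ξ l g)
    (hc : ∀ q : ℕ, 1 ≤ q → q ≤ Qm → ∀ x : E,
      ((Y.filter fun y => ∃ z : E, y - x = (q : ℤ) • z).card : ℝ) ≤ c q)
    (hΞ1 : 1 ≤ Ξ 0 1)
    (hΞ : ∀ (l q g : ℕ), 1 ≤ q → 1 ≤ g → q * g ≤ Qm → c q * Ξ l g ≤ Ξ (l + 1) (q * g)) :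
    ∀ (l : ℕ) (a : Fin l → ℤ) (g : ℕ) (v : E), 1 ≤ g → g ≤ Qm →
      (∀ f : ℕ, f ∣ g → (∀ i, (f : ℤ) ∣ a i) → f = 1) →
      (((Fintype.piFinset fun _ : Fin l => Y).filter
        fun y : Fin l → E => ∃ z : E, (∑ i, a i • y i) - v = (g : ℤ) • z).card : ℝ) ≤ Ξ l g := by
  sorry

/-- MODULE tail: tuples with a relation of large height (column exposure). -/
theorem tail_count (j d R Qt : ℕ) (hj : 2 ≤ j) (hjd : j ≤ d) (hQ1 : 1 ≤ Qt)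
    (hQ2 : Qt ≤ 2 * R + 1) :
    (((Fintype.piFinset fun _ : Fin j => Fintype.piFinset fun _ : Fin d =>
        Finset.Icc (-(R : ℤ)) (R : ℤ)).filter fun Y =>
        ∃ a : Fin j → ℤ, IsRel Y a ∧ (∀ f : ℕ, (∀ i, (f : ℤ) ∣ a i) → f = 1) ∧
          (∃ i, (Qt : ℤ) < |a i|) ∧ ∃ i₀, ∀ b, IsRel Y b → b i₀ = 0 → b = 0).card : ℝ) ≤
      2 ^ d * (((2 * R + 1 : ℕ) : ℝ) ^ j) ^ (j - 2) *
        ((2 * ((2 * R + 1 : ℕ) : ℝ)) ^ (j - 1) / Qt) ^ (d + 2 - j) := by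
  sorry

/-- MODULE top Chebyshev: pairwise independence of the prime hash. -/
theorem top_cheb {d P : ℕ} [Fact P.Prime] (A : Finset (Fin d → ℤ))
    (hinj : ∀ y ∈ A, ∀ y' ∈ A, y ≠ y' → ∃ i, ¬ (P : ℤ) ∣ y i - y' i) (hA : A.Nonempty) :
    ((univ.filter fun x : Fin (d + 1) → ZMod P =>
        (((Hx (lift P d) x A).card : ℝ) < (A.card : ℝ) / P / 2)).card : ℝ) ≤
      (P : ℝ) ^ (d + 1) * (4 / ((A.card : ℝ) / P)) := by
  sorry

/-- MODULE circ_top: first moment of circuits under the prime hash. -/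
theorem circ_top_bound (d k : ℕ) (hk : 6 * k ≤ d) (θ : ℝ) (hθ : 0 < θ) : ∃ W₀ : ℕ,
    ∀ (A : Finset (Fin d → ℤ)) (M : ℝ) (W Q P : ℕ) [Fact P.Prime] (κ : ℝ),
      Good A M W Q κ θ → 0 ≤ κ → W₀ ≤ W → Q ≤ W → W ≤ Q ^ 4 → M ≤ 2 ^ d * (P : ℝ) →
      ∀ j, 2 ≤ j → j ≤ k →
        ∑ T ∈ (A.powersetCard j).filter (fun T => IsCirc (lift 2 d) T),
          (((univ.filter fun x : Fin (d + 1) → ZMod P => ∀ y ∈ T, x ⬝ᵥ lift P d y = 0).card : ℝ) /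
            (P : ℝ) ^ (d + 1)) ≤
        (2 * M / P) ^ (j - 1) *
          ((2 * M / P) / 2 ^ d + 2 ^ j * κ ^ d + 3 ^ (2 * j + 3) / 3 ^ d + 1 / 2 ^ d) := by
  sorry

end Vale.Agent.Lib.P230
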