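import Vale.Agent.Lib.P230.Layer
import Vale.Agent.Lib.P230.Base

/-! Statements of the assembly modules. -/

set_option autoImplicit false

open MeasureTheory Finset
open scoped ENNReal Matrix Classical

namespace Vale.Agent.Lib.P230

/-- MODULE E1 erosion: small uncovered counts force covering. -/
theorem erosion_cover {d t : ℕ} {G : Type} [AddCommGroup G] [Fintype G]
    (K' : Set ((Fin d → ℝ) × (Fin t → ℝ))) (hK' : Convex ℝ K') (δ : ℝ) (hδ0 : 0 < δ) (hδ1 : δ ≤ 1 / 4)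
    (N : ℕ) (hN : 1 ≤ δ * N) (cy : Fin d → ℝ) (hc : (cy, (0 : Fin t → ℝ)) ∈ K')
    (hwin : ∀ x : Fin t → ℝ, (∀ i, |x i| ≤ 2) → ∃ y, (y, x) ∈ K')
    (C₁ : Set (Fin d → ℝ)) (hsym : ∀ a ∈ C₁, -a ∈ C₁)
    (hC : ∀ a ∈ C₁, ∀ a' ∈ C₁, (cy + δ⁻¹ • (a + a'), (0 : Fin t → ℝ)) ∈ K')
    (R : ℕ) (hR : 0 < R) (htiny : ∀ τ : Fin d → ℝ, (∀ i, 0 ≤ τ i ∧ τ i ≤ 1 / (R : ℝ)) → τ ∈ C₁)
    (h : (Fin d → ℤ) →+ G) (v : Fin t → G) (A : (Fin t → ℤ) → Finset (Fin d → ℤ))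
    (hA : ∀ u : Fin t → ℤ, (∀ i, -(N : ℤ) ≤ u i ∧ u i < N) → ∀ a ∈ A u,
      ((1 - 2 * δ)⁻¹ • ((fun i => (a i : ℝ) / R) - (2 * δ) • cy),
        (1 - 2 * δ)⁻¹ • (fun i => (u i : ℝ) / N)) ∈ K')
    (Y₁ : Finset (Fin d → ℤ)) (hY₁ : ∀ m ∈ Y₁, (fun i => (m i : ℝ) / R) ∈ C₁)
    (hinj : Set.InjOn h Y₁)
    (hcount : ∀ u : Fin t → ℤ, (∀ i, 0 ≤ u i ∧ u i < (N : ℤ)) →
      (interU (N : ℤ) (fun u => univ \ (A u).image h) v u).card < Y₁.card) :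
    ∀ x : (Fin d → ℝ) × (Fin t → ℝ), ∃ (m : Fin d → ℤ) (z : Fin t → ℤ),
      h m = ∑ i, z i • v i ∧
      (x.1 - (fun i => (m i : ℝ) / R), x.2 - (fun i => (z i : ℝ))) ∈ K' := by
  sorry

/-- MODULE E2a: a symmetric convex piece of a convex compact set. -/
theorem sym_body {d : ℕ} (hd : 0 < d) (B₀ : Set (Fin d → ℝ)) (hc : Convex ℝ B₀) (hK : IsCompact B₀)
    (V₀ : ℝ) (hV₀ : 0 < V₀) (hv : ENNReal.ofReal V₀ ≤ volume B₀) :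
    ∃ (cy : Fin d → ℝ) (Bs : Set (Fin d → ℝ)), cy ∈ B₀ ∧ Convex ℝ Bs ∧ IsCompact Bs ∧
      (∀ a ∈ Bs, -a ∈ Bs) ∧ (∀ a ∈ Bs, cy + a ∈ B₀) ∧
      volume Bs = ENNReal.ofReal (V₀ / 2 ^ d) := by
  sorry

/-- MODULE E2b: shrink a convex compact set to an exact volume. -/
theorem shrink_body {d : ℕ} (hd : 0 < d) (B : Set (Fin d → ℝ)) (hc : Convex ℝ B) (hK : IsCompact B)
    (V : ℝ) (hV : 0 < V) (hv : ENNReal.ofReal V ≤ volume B) :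
    ∃ B' : Set (Fin d → ℝ), B' ⊆ B ∧ Convex ℝ B' ∧ IsCompact B' ∧ volume B' = ENNReal.ofReal V := by
  sorry

/-- MODULE E3: the kernel of a surjective hom to a finite group is generated by a matrix. -/
theorem matrix_of_hom {ι G : Type} [Fintype ι] [DecidableEq ι] [AddCommGroup G] [Fintype G]
    (Φ : (ι → ℤ) →+ G) (hΦ : Function.Surjective Φ) :
    ∃ B : Matrix ι ι ℤ, (∀ m : ι → ℤ, Φ m = 0 ↔ ∃ k : ι → ℤ, m = B.mulVec k) ∧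
      |B.det| = (Fintype.card G : ℤ) := by
  sorry

/-- MODULE E4: the numerics of the parameters. -/
theorem params (ε : ℝ) (hε : 0 < ε) (d₀ : ℕ) : ∃ n₀ : ℕ, ∀ n ≥ n₀, ∃ d t : ℕ,
    d + t = n ∧ 1 ≤ t ∧ d₀ ≤ d ∧ 8 ≤ n ∧
    ((2 * (n : ℝ)) ^ t ≤ 2 ^ (mstar d / 16)) ∧
    (((2 * (n : ℝ)) ^ t) ^ (2 ^ t - 1) * ((1 / 2 : ℝ) ^ (mstar d / 4)) ^ (2 ^ t) <
      (1 / 2) * (1 / (4 * (n : ℝ))) ^ d) ∧
    ((2 ^ 16 * (t : ℝ) ^ 2) ^ t * ((1 - 2 / (n : ℝ))⁻¹) ^ d * 2 ^ (efin d + 2) ≤ (n : ℝ) ^ (1 + ε)) := by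
  sorry

end Vale.Agent.Lib.P230
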