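import Mathlib

/-! Statements of the last modules of the assembly of P230. -/

set_option autoImplicit false

open MeasureTheory
open scoped ENNReal Matrix

namespace Vale.Agent.Lib.P230

/-- MODULE F1: the linear algebra of the covering lattice in product coordinates. -/
theorem core_step {d t : ℕ} (K : Set ((Fin d → ℝ) × (Fin t → ℝ))) (S : Matrix (Fin t) (Fin t) ℝ)
    (z₀ : Fin t → ℝ) (hS : S.det ≠ 0) (K' : Set ((Fin d → ℝ) × (Fin t → ℝ)))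
    (hK' : ∀ p, p ∈ K' ↔ (p.1, z₀ + S.mulVec p.2) ∈ K)
    (B : Matrix (Fin d ⊕ Fin t) (Fin d ⊕ Fin t) ℤ) (R : ℕ) (hR : 0 < R)
    (hcover : ∀ x : (Fin d → ℝ) × (Fin t → ℝ), ∃ k : Fin d ⊕ Fin t → ℤ,
      (x.1 - (fun i => ((B.mulVec k (Sum.inl i) : ℤ) : ℝ) / R),
        x.2 - (fun i => ((B.mulVec k (Sum.inr i) : ℤ) : ℝ))) ∈ K') :
    ∃ A₂ : Matrix (Fin d ⊕ Fin t) (Fin d ⊕ Fin t) ℝ,
      |A₂.det| = ((R : ℝ) ^ d)⁻¹ * |S.det| * |(B.det : ℝ)| ∧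
      ∀ x : (Fin d → ℝ) × (Fin t → ℝ), ∃ u ∈ K, ∃ m : Fin d ⊕ Fin t → ℤ,
        x = u + (fun i => A₂.mulVec (fun j => (m j : ℝ)) (Sum.inl i),
          fun i => A₂.mulVec (fun j => (m j : ℝ)) (Sum.inr i)) := by
  sorry

/-- MODULE F2: transfer of a covering statement from product coordinates to `Fin (d + t) → ℝ`. -/
theorem wrap_core {d t : ℕ} (C : ℝ) (K : Set (Fin (d + t) → ℝ)) (hc : Convex ℝ K) (hK : IsCompact K)
    (hi : (interior K).Nonempty)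
    (hcore : ∀ K₂ : Set ((Fin d → ℝ) × (Fin t → ℝ)), Convex ℝ K₂ → IsCompact K₂ → 0 < volume K₂ →
      ∃ A₂ : Matrix (Fin d ⊕ Fin t) (Fin d ⊕ Fin t) ℝ, A₂.det ≠ 0 ∧
        (∀ x : (Fin d → ℝ) × (Fin t → ℝ), ∃ u ∈ K₂, ∃ m : Fin d ⊕ Fin t → ℤ,
          x = u + (fun i => A₂.mulVec (fun j => (m j : ℝ)) (Sum.inl i),
            fun i => A₂.mulVec (fun j => (m j : ℝ)) (Sum.inr i))) ∧
        (volume K₂).toReal ≤ C * |A₂.det|) :
    ∃ A : Matrix (Fin (d + t)) (Fin (d + t)) ℝ, A.det ≠ 0 ∧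
      (∀ x : Fin (d + t) → ℝ, ∃ u ∈ K, ∃ m : Fin (d + t) → ℤ,
        x = u + A.mulVec (fun i => (m i : ℝ))) ∧
      (volume K).toReal ≤ C * |A.det| := by
  sorry

end Vale.Agent.Lib.P230
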