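import Vale.Agent.Lib.P230.Defs

/-! Statement of the refined parameter choice for P230. -/

set_option autoImplicit false

namespace Vale.Agent.Lib.P230

/-- MODULE E5: the parameters for the refined bound `n (log n)^(10 log log log n)`. -/
theorem params_fine (d₀ : ℕ) : ∃ n₀ : ℕ, ∀ n ≥ n₀, ∃ d t : ℕ,
    d + t = n ∧ 1 ≤ t ∧ d₀ ≤ d ∧ 8 ≤ n ∧
    ((2 * (n : ℝ)) ^ t ≤ 2 ^ (mstar d / 16)) ∧
    (((2 * (n : ℝ)) ^ t) ^ (2 ^ t - 1) * ((1 / 2 : ℝ) ^ (mstar d / 4)) ^ (2 ^ t) <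
      (1 / 2) * (1 / (4 * (n : ℝ))) ^ d) ∧
    ((2 ^ 16 * (t : ℝ) ^ 2) ^ t * ((1 - 2 / (n : ℝ))⁻¹) ^ d * 2 ^ (efin d + 2) ≤
      (n : ℝ) * (Real.log n) ^ (10 * Real.log (Real.log (Real.log n)))) := by
  sorry

end Vale.Agent.Lib.P230
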